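import Claimed.Agent.R254.Level.Basic
import Claimed.Agent.R254.Decay.Main
import Claimed.Agent.R254.Gen.Schur

/-!
THIS FILE = PACKAGE E254-APRIORI (row 254, END254-B; architect helper65).  Mathlib only.
# A priori polynomial bound of the level sets:  `|{|ext φ g| > μ}| ≤ C μ^{-26}`  (`TT*` + DECAY with exponent `1/4`).

`erV3 := vol(ball (0:E3) 1)`.
`er_pot`: for measurable `U'` with `vol U' = m < ∞` and every `x`, every `s > 0`:
`∫⁻_{x' ∈ U'} (1+‖x-x'‖)^{-1/4} ≤ vol(ball x s) + m s^{-1/4} = erV3 s³ + m s^{-1/4}` (split `U'` into `U' ∩ ball x s`, where the integrand is `≤ 1`, and the rest, where it is `≤ s^{-1/4}`);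
`s := m^{4/13}` gives `(erV3 + 1) m^{12/13}` (`m = 0` trivial).
`er_apriori`.  `ψ :=` the `ContDiffBump` at `y₀` with `rIn = ρ`, `rOut = 2ρ`; `fun y => (ψ y : ℂ)` is an `Amp y₀ ρ · Bψ` (`Bψ := max 1 (sup ‖fderiv ψ‖)`, compact support).
For `T > 0` let `U' := {μ < ‖ext φ g‖} ∩ ball 0 T` (measurable: `ext_continuous`; finite measure `m`).  `er_tt_schur` with `ζ = volume.restrict U'`, `ν = volume.restrict (closedBall y₀ (2ρ))`,
`k x y := e(ph φ x y) * √(ψ y)` (continuous, bounded by `1`):  `∫ k x y conj(k x' y) ∂ν = ∫ e(ph φ (x-x') y) ψ y dy` (`ee_sub`, `ph_sub`, `Real.mul_self_sqrt`, `ψ = 0` off the ball), so by `dk_decay`, `er_pot`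
`A := C_D Bψ (erV3+1) m^{12/13}`.   `∫ k x y g y ∂ν = ext φ g x` (`ψ = 1` where `g ≠ 0`).  Chebyshev + `er_L2_le`:  `μ² m ≤ A (erV2+1)`, i.e. `m^{1/13} ≤ C' μ^{-2}`, `m ≤ C'^{13} μ^{-26}`.
Let `T → ∞` (`measure_iUnion_eq_iSup` along `T = n`, or `tendsto_measure_iUnion_atTop` + `le_of_tendsto'`).
-/

set_option autoImplicit false

namespace Claimed.Agent.R254

open MeasureTheory Metric Set
open scoped ContDiff ENNReal ComplexConjugate RealInnerProductSpace

/-- volume of the unit ball of `E3` -/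
noncomputable def erV3 : ℝ := (volume (ball (0 : E3) 1)).toReal

theorem erV3_pos : 0 < erV3 :=
  ENNReal.toReal_pos (measure_ball_pos _ _ one_pos).ne' measure_ball_lt_top.ne

theorem er_vol_ball3 (x : E3) {s : ℝ} (hs : 0 ≤ s) :
    volume (ball x s) = ENNReal.ofReal (s ^ 3 * erV3) := by
  rw [Measure.addHaar_ball _ _ hs, finrank_euclideanSpace_fin, ENNReal.ofReal_mul (by positivity),
    erV3, ENNReal.ofReal_toReal measure_ball_lt_top.ne]

theorem er_pot (U' : Set E3) (hU : MeasurableSet U') (m : ℝ) (hm : 0 ≤ m)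
    (hUm : volume U' = ENNReal.ofReal m) (x : E3) :
    ∫⁻ x' in U', ENNReal.ofReal ((1 + ‖x - x'‖) ^ (-(1 / 4 : ℝ))) ≤
      ENNReal.ofReal ((erV3 + 1) * m ^ (12 / 13 : ℝ)) := by
  rcases hm.eq_or_lt with rfl | hm0
  · rw [setLIntegral_measure_zero _ _ (by simpa using hUm)]
    exact zero_le
  obtain ⟨s, hs⟩ : ∃ s : ℝ, s = m ^ (4 / 13 : ℝ) := ⟨_, rfl⟩
  have hs0 : 0 < s := by rw [hs]; positivity
  have hpt : ∀ x' : E3, ENNReal.ofReal ((1 + ‖x - x'‖) ^ (-(1 / 4 : ℝ))) ≤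
      (ball x s).indicator (fun _ => (1 : ℝ≥0∞)) x' + ENNReal.ofReal (s ^ (-(1 / 4 : ℝ))) := by
    intro x'
    by_cases hx : x' ∈ ball x s
    · rw [indicator_of_mem hx]
      refine le_add_right ?_
      rw [← ENNReal.ofReal_one]
      refine ENNReal.ofReal_le_ofReal (Real.rpow_le_one_of_one_le_of_nonpos ?_ (by norm_num))
      linarith [norm_nonneg (x - x')]
    · refine le_add_left (ENNReal.ofReal_le_ofReal ?_)
      refine Real.rpow_le_rpow_of_nonpos hs0 ?_ (by norm_num)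
      rw [mem_ball, not_lt, dist_comm, dist_eq_norm] at hx
      linarith
  calc ∫⁻ x' in U', ENNReal.ofReal ((1 + ‖x - x'‖) ^ (-(1 / 4 : ℝ)))
      ≤ ∫⁻ x' in U', ((ball x s).indicator (fun _ => (1 : ℝ≥0∞)) x'
          + ENNReal.ofReal (s ^ (-(1 / 4 : ℝ)))) := lintegral_mono hpt
    _ = (∫⁻ x' in U', (ball x s).indicator (fun _ => (1 : ℝ≥0∞)) x')
          + ∫⁻ _ in U', ENNReal.ofReal (s ^ (-(1 / 4 : ℝ))) :=
        lintegral_add_left (measurable_const.indicator measurableSet_ball) _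
    _ ≤ ENNReal.ofReal (s ^ 3 * erV3) + ENNReal.ofReal (s ^ (-(1 / 4 : ℝ))) * ENNReal.ofReal m := by
        refine add_le_add ?_ ?_
        · rw [← er_vol_ball3 x hs0.le]
          refine (setLIntegral_le_lintegral _ _).trans ?_
          rw [lintegral_indicator_const measurableSet_ball, one_mul]
        · rw [setLIntegral_const, hUm]
    _ = ENNReal.ofReal ((erV3 + 1) * m ^ (12 / 13 : ℝ)) := by
        rw [← ENNReal.ofReal_mul (by positivity), ← ENNReal.ofReal_add (by have := erV3_pos; positivity)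
          (by positivity)]
        congr 1
        have e1 : s ^ 3 = m ^ (12 / 13 : ℝ) := by
          rw [hs, ← Real.rpow_natCast, ← Real.rpow_mul hm0.le]
          norm_num
        have e2 : s ^ (-(1 / 4 : ℝ)) * m = m ^ (12 / 13 : ℝ) := by
          rw [hs, ← Real.rpow_mul hm0.le]
          nth_rewrite 2 [← Real.rpow_one m]
          rw [← Real.rpow_add hm0]
          norm_num
        rw [e1, e2]
        ring

/-- the cut-off of `er_apriori` -/
theorem er_apriori_bump (y₀ : E2) {ρ : ℝ} (hρ : 0 < ρ) :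
    ∃ (ψ : E2 → ℝ) (B : ℝ), 0 ≤ B ∧ Continuous ψ ∧ (∀ y, 0 ≤ ψ y) ∧ (∀ y, ψ y ≤ 1) ∧
      (∀ y ∈ closedBall y₀ ρ, ψ y = 1) ∧ (∀ y, y ∉ closedBall y₀ (2 * ρ) → ψ y = 0) ∧
      Amp y₀ ρ (fun y => (ψ y : ℂ)) B := by
  let ψ : ContDiffBump y₀ := ⟨ρ, 2 * ρ, hρ, by linarith⟩
  have hz : ∀ y, y ∉ closedBall y₀ (2 * ρ) → ψ y = 0 := by
    intro y hy
    refine ψ.zero_of_le_dist ?_
    rw [mem_closedBall, not_le] at hy
    exact hy.le
  have hsm : ContDiff ℝ 1 (fun y => (ψ y : ℂ)) := Complex.ofRealCLM.contDiff.comp ψ.contDiff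
  have hcs : HasCompactSupport (fun y => (ψ y : ℂ)) :=
    ψ.hasCompactSupport.comp_left (g := fun t : ℝ => (t : ℂ)) Complex.ofReal_zero
  obtain ⟨C, hC⟩ := (hsm.continuous_fderiv one_ne_zero).bounded_above_of_compact_support
    (hcs.fderiv (𝕜 := ℝ))
  refine ⟨ψ, max 1 C, by positivity, ψ.continuous, fun y => ψ.nonneg, fun y => ψ.le_one,
    fun y hy => ψ.one_of_mem_closedBall hy, hz, hsm, fun y hy => ?_, fun y => ?_,
    fun y => (hC y).trans (le_max_right _ _)⟩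
  · simp only [hz y hy, Complex.ofReal_zero]
  · rw [Complex.norm_real, Real.norm_eq_abs, abs_of_nonneg ψ.nonneg]
    exact ψ.le_one.trans (le_max_left _ _)

/-- real arithmetic at the end of `er_apriori` -/
theorem er_apriori_arith {K m μ : ℝ} (hK : 0 ≤ K) (hm : 0 ≤ m) (hμ : 0 < μ)
    (h : μ ^ 2 * m ≤ K * m ^ (12 / 13 : ℝ)) : m ≤ K ^ 13 * μ⁻¹ ^ 26 := by
  rcases hm.eq_or_lt with rfl | hm0
  · positivity
  obtain ⟨t, ht⟩ : ∃ t : ℝ, t = m ^ (1 / 13 : ℝ) := ⟨_, rfl⟩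
  have ht0 : 0 < t := by rw [ht]; positivity
  have e1 : m = t ^ 13 := by
    rw [ht, ← Real.rpow_natCast, ← Real.rpow_mul hm0.le]
    norm_num
  have e2 : m ^ (12 / 13 : ℝ) = t ^ 12 := by
    rw [ht, ← Real.rpow_natCast, ← Real.rpow_mul hm0.le]
    norm_num
  rw [e2, e1] at h
  have h1 : μ ^ 2 * t ≤ K := by
    have h2 : (μ ^ 2 * t) * t ^ 12 ≤ K * t ^ 12 := by
      calc (μ ^ 2 * t) * t ^ 12 = μ ^ 2 * t ^ 13 := by ring
        _ ≤ _ := h
    exact le_of_mul_le_mul_right h2 (by positivity)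
  have h3 : t ≤ K * μ⁻¹ ^ 2 := by
    have : t = (μ ^ 2 * t) * μ⁻¹ ^ 2 := by field_simp
    rw [this]
    exact mul_le_mul_of_nonneg_right h1 (by positivity)
  calc m = t ^ 13 := e1
    _ ≤ (K * μ⁻¹ ^ 2) ^ 13 := pow_le_pow_left₀ ht0.le h3 13
    _ = K ^ 13 * μ⁻¹ ^ 26 := by ring

/-- the bound of `er_apriori` for a subset of finite measure of the level set -/
theorem er_apriori_fin {φ : E2 → ℝ} {y₀ : E2} {ρ c G : ℝ} (h : ErLoc φ y₀ ρ c G) {ψ : E2 → ℝ}
    {B CD : ℝ} (hB : 0 ≤ B) (hCD : 0 ≤ CD) (hψc : Continuous ψ) (hψ0 : ∀ y, 0 ≤ ψ y)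
    (hψ1 : ∀ y, ψ y ≤ 1) (hψone : ∀ y ∈ closedBall y₀ ρ, ψ y = 1)
    (hψz : ∀ y, y ∉ closedBall y₀ (2 * ρ) → ψ y = 0)
    (hdec : ∀ b : E3, ‖∫ y, ee (ph φ b y) * (ψ y : ℂ)‖ ≤ CD * B * (1 + ‖b‖) ^ (-(1 / 4 : ℝ)))
    {g : E2 → ℂ} (hg : Dat y₀ ρ g) (h3 : ∫⁻ y, ‖g y‖ₑ ^ (3 : ℝ) ≤ 1) {μ : ℝ} (hμ : 0 < μ)
    {U' : Set E3} (hU' : MeasurableSet U') (hsub : ∀ x ∈ U', μ < ‖ext φ g x‖)
    (hfin : volume U' < ⊤) :
    volume U' ≤ ENNReal.ofReal ((CD * B * (erV3 + 1) * (erV2 + 1)) ^ 13 * μ⁻¹ ^ 26) := by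
  have hφ : Continuous φ := h.smooth.continuous
  have hV3 := erV3_pos
  have hV2 := erV2_pos
  obtain ⟨m, hm⟩ : ∃ m : ℝ, m = (volume U').toReal := ⟨_, rfl⟩
  have hm0 : 0 ≤ m := by rw [hm]; exact ENNReal.toReal_nonneg
  have hUm : volume U' = ENNReal.ofReal m := by rw [hm, ENNReal.ofReal_toReal hfin.ne]
  have : IsFiniteMeasure (volume.restrict U') :=
    ⟨by rw [Measure.restrict_apply_univ]; exact hfin⟩
  have : IsFiniteMeasure (volume.restrict (closedBall y₀ (2 * ρ))) :=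
    ⟨by rw [Measure.restrict_apply_univ]; exact measure_closedBall_lt_top⟩
  obtain ⟨k, hkdef⟩ : ∃ k : E3 → E2 → ℂ, ∀ x y, k x y = ee (ph φ x y) * ((Real.sqrt (ψ y) : ℝ) : ℂ) :=
    ⟨_, fun _ _ => rfl⟩
  have hk : Measurable (Function.uncurry k) := by
    have : Function.uncurry k = fun p : E3 × E2 => ee (ph φ p.1 p.2) * ((Real.sqrt (ψ p.2) : ℝ) : ℂ) := by
      funext p
      exact hkdef p.1 p.2
    rw [this]
    exact ((ee_continuous.comp (ph_continuous hφ)).mul (Complex.continuous_ofReal.comp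
      (Real.continuous_sqrt.comp (hψc.comp continuous_snd)))).measurable
  have hBk : ∀ z y, ‖k z y‖ ≤ 1 := by
    intro z y
    rw [hkdef, norm_mul, ee_norm, one_mul, Complex.norm_real, Real.norm_eq_abs,
      abs_of_nonneg (Real.sqrt_nonneg _)]
    exact Real.sqrt_le_one.2 (hψ1 y)
  obtain ⟨A, hAdef⟩ : ∃ A : ℝ, A = CD * B * ((erV3 + 1) * m ^ (12 / 13 : ℝ)) := ⟨_, rfl⟩
  have hA : 0 ≤ A := by rw [hAdef]; positivity
  have hL : ∀ z, ∫⁻ z', ‖∫ y, k z y * conj (k z' y) ∂(volume.restrict (closedBall y₀ (2 * ρ)))‖ₑ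
      ∂(volume.restrict U') ≤ ENNReal.ofReal A := by
    intro z
    have e : ∀ z', ∫ y, k z y * conj (k z' y) ∂(volume.restrict (closedBall y₀ (2 * ρ)))
        = ∫ y, ee (ph φ (z - z') y) * (ψ y : ℂ) := by
      intro z'
      have e1 : ∀ y, k z y * conj (k z' y) = ee (ph φ (z - z') y) * (ψ y : ℂ) := by
        intro y
        rw [hkdef, hkdef, map_mul, Complex.conj_ofReal, ph_sub, ee_sub]
        nth_rewrite 3 [← Real.mul_self_sqrt (hψ0 y)]
        push_cast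
        ring
      simp only [e1]
      refine setIntegral_eq_integral_of_forall_compl_eq_zero fun y hy => ?_
      rw [hψz y hy, Complex.ofReal_zero, mul_zero]
    calc ∫⁻ z', ‖∫ y, k z y * conj (k z' y) ∂(volume.restrict (closedBall y₀ (2 * ρ)))‖ₑ
          ∂(volume.restrict U')
        ≤ ∫⁻ z', ENNReal.ofReal (CD * B) * ENNReal.ofReal ((1 + ‖z - z'‖) ^ (-(1 / 4 : ℝ)))
          ∂(volume.restrict U') := by
          refine lintegral_mono fun z' => ?_
          rw [e z', ← ofReal_norm, ← ENNReal.ofReal_mul (by positivity)]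
          exact ENNReal.ofReal_le_ofReal (hdec _)
      _ = ENNReal.ofReal (CD * B) * ∫⁻ z' in U', ENNReal.ofReal ((1 + ‖z - z'‖) ^ (-(1 / 4 : ℝ))) :=
          lintegral_const_mul' _ _ ENNReal.ofReal_ne_top
      _ ≤ ENNReal.ofReal (CD * B) * ENNReal.ofReal ((erV3 + 1) * m ^ (12 / 13 : ℝ)) :=
          mul_le_mul_right (er_pot U' hU' m hm0 hUm z) _
      _ = ENNReal.ofReal A := by rw [hAdef, ← ENNReal.ofReal_mul (by positivity)]
  have main := er_tt_schur (volume.restrict U') (volume.restrict (closedBall y₀ (2 * ρ))) k hk 1 hBk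
    A hA (Filter.Eventually.of_forall hL) g hg.meas hg.bdd
  have hext : ∀ z, ∫ y, k z y * g y ∂(volume.restrict (closedBall y₀ (2 * ρ))) = ext φ g z := by
    intro z
    have e1 : ∀ y, k z y * g y = ee (ph φ z y) * g y := by
      intro y
      by_cases hy : g y = 0
      · rw [hy, mul_zero, mul_zero]
      · rw [hkdef, hψone y (hg.supp y hy), Real.sqrt_one, Complex.ofReal_one, mul_one]
    simp only [e1]
    refine setIntegral_eq_integral_of_forall_compl_eq_zero fun y hy => ?_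
    have : g y = 0 := by
      by_contra hne
      exact hy (closedBall_subset_closedBall (by linarith [h.hρ]) (hg.supp y hne))
    rw [this, mul_zero]
  simp only [hext] at main
  have hch : ENNReal.ofReal (μ ^ 2) * volume U' ≤ ∫⁻ z in U', ‖ext φ g z‖ₑ ^ (2 : ℝ) := by
    rw [← setLIntegral_const]
    refine setLIntegral_mono' hU' fun z hz => ?_
    rw [← ofReal_norm, ENNReal.ofReal_rpow_of_nonneg (norm_nonneg _) (by norm_num),
      Real.rpow_two]
    exact ENNReal.ofReal_le_ofReal (pow_le_pow_left₀ hμ.le (hsub z hz).le 2)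
  have hg2 : ∫⁻ y, ‖g y‖ₑ ^ (2 : ℝ) ∂(volume.restrict (closedBall y₀ (2 * ρ)))
      ≤ ENNReal.ofReal (erV2 + 1) :=
    (setLIntegral_le_lintegral _ _).trans (er_L2_le h.hρ.le h.hρ1 hg h3)
  have hfinal : ENNReal.ofReal (μ ^ 2 * m) ≤ ENNReal.ofReal (A * (erV2 + 1)) := by
    rw [ENNReal.ofReal_mul (by positivity), ENNReal.ofReal_mul hA, ← hUm]
    exact hch.trans (main.trans (mul_le_mul_right hg2 _))
  rw [ENNReal.ofReal_le_ofReal_iff (by positivity)] at hfinal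
  rw [hUm]
  refine ENNReal.ofReal_le_ofReal (er_apriori_arith (by positivity) hm0 hμ ?_)
  calc μ ^ 2 * m ≤ A * (erV2 + 1) := hfinal
    _ = _ := by rw [hAdef]; ring

theorem er_apriori {φ : E2 → ℝ} {y₀ : E2} {ρ c G : ℝ} (h : ErLoc φ y₀ ρ c G) :
    ∃ C : ℝ, 0 ≤ C ∧ ∀ g : E2 → ℂ, Dat y₀ ρ g → ∫⁻ y, ‖g y‖ₑ ^ (3 : ℝ) ≤ 1 → ∀ μ : ℝ, 0 < μ →
      volume {x : E3 | μ < ‖ext φ g x‖} ≤ ENNReal.ofReal (C * μ⁻¹ ^ 26) := by
  obtain ⟨ψ, B, hB, hψc, hψ0, hψ1, hψone, hψz, hamp⟩ := er_apriori_bump y₀ h.hρ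
  obtain ⟨CD, hCD, hdec⟩ := dk_decay h
  have hV3 := erV3_pos
  have hV2 := erV2_pos
  refine ⟨(CD * B * (erV3 + 1) * (erV2 + 1)) ^ 13, by positivity, fun g hg h3 μ hμ => ?_⟩
  have hmeas : MeasurableSet {x : E3 | μ < ‖ext φ g x‖} :=
    (isOpen_lt continuous_const (ext_continuous h.smooth.continuous hg.integrable).norm).measurableSet
  have hU : {x : E3 | μ < ‖ext φ g x‖}
      = ⋃ n : ℕ, {x : E3 | μ < ‖ext φ g x‖} ∩ ball 0 n := by
    rw [← inter_iUnion, iUnion_ball_nat, inter_univ]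
  have hmono : Monotone fun n : ℕ => {x : E3 | μ < ‖ext φ g x‖} ∩ ball 0 n := by
    intro a b hab
    exact inter_subset_inter_right _ (ball_subset_ball (by exact_mod_cast hab))
  rw [hU, hmono.measure_iUnion]
  refine iSup_le fun n => ?_
  exact er_apriori_fin h hB hCD hψc hψ0 hψ1 hψone hψz (hdec _ _ hamp) hg h3 hμ
    (hmeas.inter measurableSet_ball) (fun x hx => hx.1)
    ((measure_mono inter_subset_right).trans_lt measure_ball_lt_top)

/-- generates the equation lemmas of the definitions above in this file (rule 6: unique names) -/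
theorem er_apriori_eqns_cite : True := by
  have := @erV3.eq_1
  trivial

end Claimed.Agent.R254
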