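import Claimed.Agent.R254.Ker.Int

/-!
THIS FILE = PACKAGE E254-EXTBASIC (row 254, END254-B; architect helper65).  Mathlib only.
# Elementary bounds for normalised data (`Dat y₀ ρ g`, `ρ ≤ 1`, `∫ |g|³ ≤ 1`).

No Hölder: `t ≤ 1 + t³` and `t² ≤ 1 + t³` for `t ≥ 0`, and `g = 0` off `closedBall y₀ ρ` of area `ρ² erV2 ≤ erV2`; so `∫|g|, ∫|g|² ≤ erV2 + 1`.
(Work with `∫⁻`: `‖g y‖ₑ ≤ 1_{ball}(y) + ‖g y‖ₑ³`; `lintegral_add_left`, `lintegral_indicator_one`, `er_vol_closedBall`; for the Bochner integral `integral_norm_eq_lintegral_enorm`/`ofReal_integral_norm_eq_lintegral_enorm`, `Dat.integrable`.)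
`er_ext_sup`: `norm_ext_le`.
`er_ext_lip`: `‖ext φ g x - ext φ g x'‖ ≤ ∫ ‖e(ph x y) - e(ph x' y)‖ ‖g y‖ ≤ 2π ‖x - x'‖ Γ₀ ∫‖g‖`, `Γ₀ := sup_{closedBall y₀ ρ} (‖y‖ + |φ y|)` (`IsCompact.exists_bound_of_continuousOn`), by `ee_sub_le`, `ph_sub`, `abs_ph_le`
(`integral_sub`, `norm_integral_le_of_norm_le`; the bound is only needed where `g y ≠ 0`).
-/

set_option autoImplicit false

namespace Claimed.Agent.R254

open MeasureTheory Metric Set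
open scoped ContDiff ENNReal ComplexConjugate RealInnerProductSpace

theorem er_lp_le_aux {y₀ : E2} {ρ : ℝ} (hρ0 : 0 ≤ ρ) (hρ : ρ ≤ 1) {g : E2 → ℂ} (hg : Dat y₀ ρ g)
    (h3 : ∫⁻ y, ‖g y‖ₑ ^ (3 : ℝ) ≤ 1) {p : ℝ} (hp0 : 0 < p) (hp3 : p ≤ 3) :
    ∫⁻ y, ‖g y‖ₑ ^ p ≤ ENNReal.ofReal (erV2 + 1) := by
  have hpt : ∀ y, ‖g y‖ₑ ^ p ≤ (closedBall y₀ ρ).indicator (fun _ => (1 : ℝ≥0∞)) y + ‖g y‖ₑ ^ (3 : ℝ) := by
    intro y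
    by_cases hy : g y = 0
    · rw [hy, enorm_zero, ENNReal.zero_rpow_of_pos hp0]
      exact zero_le
    · rw [Set.indicator_of_mem (hg.supp y hy)]
      rcases le_total ‖g y‖ₑ 1 with h1 | h1
      · exact (ENNReal.rpow_le_one h1 hp0.le).trans le_self_add
      · exact (ENNReal.rpow_le_rpow_of_exponent_le h1 hp3).trans le_add_self
  calc ∫⁻ y, ‖g y‖ₑ ^ p
      ≤ ∫⁻ y, ((closedBall y₀ ρ).indicator (fun _ => (1 : ℝ≥0∞)) y + ‖g y‖ₑ ^ (3 : ℝ)) :=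
        lintegral_mono hpt
    _ = (∫⁻ y, (closedBall y₀ ρ).indicator (fun _ => (1 : ℝ≥0∞)) y) + ∫⁻ y, ‖g y‖ₑ ^ (3 : ℝ) :=
        lintegral_add_left (measurable_const.indicator measurableSet_closedBall) _
    _ ≤ ENNReal.ofReal erV2 + 1 := by
        refine add_le_add ?_ h3
        rw [lintegral_indicator measurableSet_closedBall, setLIntegral_const, one_mul,
          er_vol_closedBall y₀ hρ0]
        refine ENNReal.ofReal_le_ofReal ?_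
        have h1 : ρ ^ 2 ≤ 1 := pow_le_one₀ hρ0 hρ
        nlinarith [erV2_pos]
    _ = ENNReal.ofReal (erV2 + 1) := by
        rw [ENNReal.ofReal_add erV2_pos.le zero_le_one, ENNReal.ofReal_one]

theorem er_L1_le {y₀ : E2} {ρ : ℝ} (hρ0 : 0 ≤ ρ) (hρ : ρ ≤ 1) {g : E2 → ℂ} (hg : Dat y₀ ρ g)
    (h3 : ∫⁻ y, ‖g y‖ₑ ^ (3 : ℝ) ≤ 1) : ∫ y, ‖g y‖ ≤ erV2 + 1 := by
  have h1 := er_lp_le_aux hρ0 hρ hg h3 (p := 1) one_pos (by norm_num)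
  simp only [ENNReal.rpow_one] at h1
  rw [integral_norm_eq_lintegral_enorm hg.meas.aestronglyMeasurable]
  exact ENNReal.toReal_le_of_le_ofReal (by linarith [erV2_pos]) h1

theorem er_L2_le {y₀ : E2} {ρ : ℝ} (hρ0 : 0 ≤ ρ) (hρ : ρ ≤ 1) {g : E2 → ℂ} (hg : Dat y₀ ρ g)
    (h3 : ∫⁻ y, ‖g y‖ₑ ^ (3 : ℝ) ≤ 1) : ∫⁻ y, ‖g y‖ₑ ^ (2 : ℝ) ≤ ENNReal.ofReal (erV2 + 1) :=
  er_lp_le_aux hρ0 hρ hg h3 (by norm_num) (by norm_num)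

theorem er_ext_sup (φ : E2 → ℝ) {y₀ : E2} {ρ : ℝ} (hρ0 : 0 ≤ ρ) (hρ : ρ ≤ 1) {g : E2 → ℂ}
    (hg : Dat y₀ ρ g) (h3 : ∫⁻ y, ‖g y‖ₑ ^ (3 : ℝ) ≤ 1) (x : E3) : ‖ext φ g x‖ ≤ erV2 + 1 :=
  (norm_ext_le φ g x).trans (er_L1_le hρ0 hρ hg h3)

theorem er_ext_lip {φ : E2 → ℝ} (hφ : Continuous φ) (y₀ : E2) {ρ : ℝ} (hρ0 : 0 ≤ ρ) (hρ : ρ ≤ 1) :
    ∃ L : ℝ, 0 ≤ L ∧ ∀ g : E2 → ℂ, Dat y₀ ρ g → ∫⁻ y, ‖g y‖ₑ ^ (3 : ℝ) ≤ 1 →
      ∀ x x' : E3, ‖ext φ g x - ext φ g x'‖ ≤ L * ‖x - x'‖ := by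
  have hc : Continuous fun y : E2 => ‖y‖ + |φ y| := continuous_norm.add hφ.abs
  obtain ⟨Γ, hΓ⟩ := (isCompact_closedBall y₀ ρ).exists_bound_of_continuousOn hc.continuousOn
  have hΓ' : ∀ y ∈ closedBall y₀ ρ, ‖y‖ + |φ y| ≤ Γ := fun y hy =>
    (Real.le_norm_self _).trans (hΓ y hy)
  have hΓ0 : 0 ≤ Γ := (norm_nonneg _).trans (hΓ y₀ (mem_closedBall_self hρ0))
  have hV : 0 ≤ erV2 + 1 := by linarith [erV2_pos]
  refine ⟨2 * Real.pi * Γ * (erV2 + 1), by positivity, fun g hg h3 x x' => ?_⟩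
  have hi := hg.integrable
  unfold ext
  rw [← integral_sub (ext_integrable hφ hi x) (ext_integrable hφ hi x')]
  have hb : ∀ y, ‖ee (ph φ x y) * g y - ee (ph φ x' y) * g y‖
      ≤ 2 * Real.pi * Γ * ‖x - x'‖ * ‖g y‖ := by
    intro y
    by_cases hy : g y = 0
    · simp [hy]
    · rw [← sub_mul, norm_mul]
      refine mul_le_mul_of_nonneg_right ?_ (norm_nonneg _)
      refine (ee_sub_le _ _).trans ?_
      rw [← ph_sub]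
      have h1 := abs_ph_le φ (x - x') y
      have h2 := hΓ' y (hg.supp y hy)
      have h3 : ‖x - x'‖ * (‖y‖ + |φ y|) ≤ ‖x - x'‖ * Γ :=
        mul_le_mul_of_nonneg_left h2 (norm_nonneg _)
      calc 2 * Real.pi * |ph φ (x - x') y| ≤ 2 * Real.pi * (‖x - x'‖ * Γ) :=
            mul_le_mul_of_nonneg_left (h1.trans h3) (by positivity)
        _ = 2 * Real.pi * Γ * ‖x - x'‖ := by ring
  calc ‖∫ y, (ee (ph φ x y) * g y - ee (ph φ x' y) * g y)‖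
      ≤ ∫ y, 2 * Real.pi * Γ * ‖x - x'‖ * ‖g y‖ :=
        norm_integral_le_of_norm_le (hi.norm.const_mul _) (Filter.Eventually.of_forall hb)
    _ = 2 * Real.pi * Γ * ‖x - x'‖ * ∫ y, ‖g y‖ := integral_const_mul _ _
    _ ≤ 2 * Real.pi * Γ * ‖x - x'‖ * (erV2 + 1) :=
        mul_le_mul_of_nonneg_left (er_L1_le hρ0 hρ hg h3) (by positivity)
    _ = 2 * Real.pi * Γ * (erV2 + 1) * ‖x - x'‖ := by ring

end Claimed.Agent.R254
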