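import Claimed.Agent.R254.Level.Points
import Claimed.Agent.R254.Sparse.Main
import Claimed.Agent.R254.Gen.CoverBound
import Claimed.Agent.R254.Gen.Rad

/-!
# R254 / Level / Level : THE LEVEL SET BOUND `|{|ext φ g| > μ}| ≤ C_ε μ^{-3-ε}` (glue; architect helper65).

`er_points` (`≤ M = CM μ^{-29}` unit balls) + `er_cover_bound` (covering lemma) + `er_sparse` at the radii `3 erRad R₁ M k` + `er_rad_*`.
`n > 58/ε` levels, `ν = ε/(2A)` where `erRad R₁ M n ≤ B μ^{-A}`.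
-/

set_option autoImplicit false

namespace Claimed.Agent.R254

open MeasureTheory Metric Set
open scoped ContDiff ENNReal ComplexConjugate RealInnerProductSpace

theorem er_level {φ : E2 → ℝ} {y₀ : E2} {ρ c G : ℝ} (h : ErLoc φ y₀ ρ c G)
    (hloc : LocEst φ y₀ (2 * ρ)) :
    ∀ ε : ℝ, 0 < ε → ∃ C : ℝ, 0 ≤ C ∧ ∀ g : E2 → ℂ, Dat y₀ ρ g → ∫⁻ y, ‖g y‖ₑ ^ (3 : ℝ) ≤ 1 →
      ∀ μ : ℝ, 0 < μ → μ ≤ 1 →
        volume {x : E3 | μ < ‖ext φ g x‖} ≤ ENNReal.ofReal (C * μ⁻¹ ^ (3 + ε)) := by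
  intro ε hε
  obtain ⟨R₁, hR₁, hsp⟩ := er_sparse h hloc
  obtain ⟨CM, hCM, hpts⟩ := er_points h
  obtain ⟨n, hn⟩ := exists_nat_gt (58 / ε)
  have hn0 : 0 < (n : ℝ) := lt_trans (by positivity) hn
  have hn1 : 1 ≤ n := by
    rcases Nat.eq_zero_or_pos n with rfl | h'
    · simp at hn0
    · exact h'
  have hn1' : (1 : ℝ) ≤ n := by exact_mod_cast hn1
  have h29 : 29 / (n : ℝ) ≤ ε / 2 := by
    rw [div_le_iff₀ hn0]
    rw [div_lt_iff₀ hε] at hn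
    linarith
  obtain ⟨A, B, hA, hB, hgrow⟩ := er_rad_growth (q := 29) hR₁ hCM (by norm_num) n
  obtain ⟨Cν, hCν, hspν⟩ := hsp (ε / (2 * A)) (by positivity)
  have hB0 : 0 < B := by linarith
  refine ⟨n * (2 * CM) * (2 * Cν * (3 * B) ^ (ε / (2 * A))), by positivity,
    fun g hg h3 μ hμ hμ1 => ?_⟩
  set T := μ⁻¹ with hT
  have hT1 : 1 ≤ T := (one_le_inv₀ hμ).2 hμ1
  have hT0 : 0 < T := by linarith
  set M := CM * T ^ (29 : ℝ) with hMdef
  have hT29 : 1 ≤ T ^ (29 : ℝ) := Real.one_le_rpow hT1 (by norm_num)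
  have hM1 : 1 ≤ M := by nlinarith
  have hM0 : 0 ≤ M := by linarith
  obtain ⟨Z, hZc, hZ⟩ := hpts g hg h3 μ hμ hμ1
  set ν := ε / (2 * A) with hν
  have hν0 : 0 < ν := by positivity
  have hRadge : ∀ k, R₁ ≤ erRad R₁ M k := fun k => er_rad_mono' R₁ M (Nat.zero_le k)
  have hD : M ^ ((1 : ℝ) / n) ≤ (⌈M ^ ((1 : ℝ) / n)⌉₊ : ℝ) := Nat.le_ceil _
  have hset : {x : E3 | μ < ‖ext φ g x‖} = {x : E3 | ENNReal.ofReal μ < ‖ext φ g x‖ₑ} := by
    ext x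
    simp only [Set.mem_ofPred_eq]
    rw [← ofReal_norm, ENNReal.ofReal_lt_ofReal_iff_of_nonneg hμ.le]
  have hmeas : Measurable fun x : E3 => ‖ext φ g x‖ₑ :=
    (ext_continuous h.smooth.continuous hg.integrable).measurable.enorm
  have key := er_cover_bound (fun x => ‖ext φ g x‖ₑ) hmeas μ hμ Z
    (fun x hx => hZ x (by
      rw [← ofReal_norm, ENNReal.ofReal_lt_ofReal_iff_of_nonneg hμ.le] at hx
      exact hx)) M hZc hM1 n hn1 (erRad R₁ M) (hR₁.trans (hRadge 0)) (er_rad_mono R₁ M)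
    ⌈M ^ ((1 : ℝ) / n)⌉₊ hD (ENNReal.ofReal (Cν * (3 * erRad R₁ M n) ^ ν * 2)) (by
      intro k hk W hW hsep
      have hRk : R₁ ≤ erRad R₁ M k := hRadge k
      have hRk0 : 0 < erRad R₁ M k := by linarith
      have hS : 0 ≤ erRad R₁ M (k + 1) - erRad R₁ M k := sub_nonneg.2 (er_rad_mono R₁ M k)
      have h1 := hspν (3 * erRad R₁ M k) (by linarith) W _ hS hsep g hg
      refine h1.trans ?_
      refine (mul_le_mul_right h3 _).trans ?_
      rw [mul_one]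
      refine ENNReal.ofReal_le_ofReal ?_
      have hS4 : 0 ≤ (1 + (erRad R₁ M (k + 1) - erRad R₁ M k)) ^ (-(1 / 4 : ℝ)) :=
        Real.rpow_nonneg (by linarith) _
      have h2 : (W.card : ℝ) * (3 * erRad R₁ M k) ^ 6 *
          (1 + (erRad R₁ M (k + 1) - erRad R₁ M k)) ^ (-(1 / 4 : ℝ)) ≤ 1 := by
        refine le_trans ?_ (er_rad_sep (by linarith : (0 : ℝ) ≤ R₁) hM0 k)
        gcongr
      have h4 : (3 * erRad R₁ M k) ^ ν ≤ (3 * erRad R₁ M n) ^ ν :=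
        Real.rpow_le_rpow (by positivity) (by linarith [er_rad_mono' R₁ M hk.le]) hν0.le
      have h5 : 0 ≤ (3 * erRad R₁ M k) ^ ν := Real.rpow_nonneg (by positivity) _
      calc Cν * (3 * erRad R₁ M k) ^ ν * (1 + (W.card : ℝ) * (3 * erRad R₁ M k) ^ 6 *
            (1 + (erRad R₁ M (k + 1) - erRad R₁ M k)) ^ (-(1 / 4 : ℝ)))
          ≤ Cν * (3 * erRad R₁ M k) ^ ν * 2 :=
            mul_le_mul_of_nonneg_left (by linarith) (by positivity)
        _ ≤ Cν * (3 * erRad R₁ M n) ^ ν * 2 := by gcongr)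
  rw [hset]
  refine key.trans ?_
  have hRn0 : 0 < erRad R₁ M n := by linarith [hRadge n]
  rw [← ENNReal.ofReal_natCast, ← ENNReal.ofReal_mul (by positivity),
    ← ENNReal.ofReal_mul (by positivity)]
  refine ENNReal.ofReal_le_ofReal ?_
  -- the numerical inequality
  have hMn1 : 1 ≤ M ^ ((1 : ℝ) / n) := Real.one_le_rpow hM1 (by positivity)
  have hDle : (⌈M ^ ((1 : ℝ) / n)⌉₊ : ℝ) ≤ 2 * M ^ ((1 : ℝ) / n) := by
    have := (Nat.ceil_lt_add_one (by positivity : (0 : ℝ) ≤ M ^ ((1 : ℝ) / n))).le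
    linarith
  have hMn : M ^ ((1 : ℝ) / n) ≤ CM * T ^ (ε / 2) := by
    rw [hMdef, Real.mul_rpow (by linarith) (by positivity), ← Real.rpow_mul hT0.le]
    have h6 : CM ^ ((1 : ℝ) / n) ≤ CM := by
      calc CM ^ ((1 : ℝ) / n) ≤ CM ^ (1 : ℝ) :=
            Real.rpow_le_rpow_of_exponent_le hCM (by rw [div_le_one hn0]; exact hn1')
        _ = CM := Real.rpow_one _
    have h7 : T ^ ((29 : ℝ) * ((1 : ℝ) / n)) ≤ T ^ (ε / 2) :=
      Real.rpow_le_rpow_of_exponent_le hT1 (by rw [mul_one_div]; exact h29)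
    exact mul_le_mul h6 h7 (Real.rpow_nonneg hT0.le _) (by linarith)
  have hRν : (3 * erRad R₁ M n) ^ ν ≤ (3 * B) ^ ν * T ^ (ε / 2) := by
    have h8 : 3 * erRad R₁ M n ≤ 3 * B * T ^ A := by
      have := hgrow T hT1
      rw [mul_assoc]
      linarith
    calc (3 * erRad R₁ M n) ^ ν ≤ (3 * B * T ^ A) ^ ν :=
          Real.rpow_le_rpow (by positivity) h8 hν0.le
      _ = (3 * B) ^ ν * T ^ (ε / 2) := by
          rw [Real.mul_rpow (by positivity) (Real.rpow_nonneg hT0.le _), ← Real.rpow_mul hT0.le]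
          congr 2
          rw [hν]
          field_simp
  have hTpow : T ^ 3 * T ^ (ε / 2) * T ^ (ε / 2) = T ^ (3 + ε) := by
    rw [← Real.rpow_natCast T 3, ← Real.rpow_add hT0, ← Real.rpow_add hT0]
    congr 1
    push_cast
    ring
  have hTe : 0 ≤ T ^ (ε / 2) := Real.rpow_nonneg hT0.le _
  have h3B : 0 ≤ (3 * B) ^ ν := Real.rpow_nonneg (by positivity) _
  push_cast
  calc (n : ℝ) * (⌈M ^ ((1 : ℝ) / n)⌉₊ : ℝ) * (T ^ 3 * (Cν * (3 * erRad R₁ M n) ^ ν * 2))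
      ≤ (n : ℝ) * (2 * (CM * T ^ (ε / 2))) * (T ^ 3 * (Cν * ((3 * B) ^ ν * T ^ (ε / 2)) * 2)) := by
        have h9 : (⌈M ^ ((1 : ℝ) / n)⌉₊ : ℝ) ≤ 2 * (CM * T ^ (ε / 2)) := by linarith
        gcongr
    _ = n * (2 * CM) * (2 * Cν * (3 * B) ^ ν) * (T ^ 3 * T ^ (ε / 2) * T ^ (ε / 2)) := by ring
    _ = n * (2 * CM) * (2 * Cν * (3 * B) ^ ν) * T ^ (3 + ε) := by rw [hTpow]

end Claimed.Agent.R254
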