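import Claimed.Agent.R254.Level.Apriori
import Claimed.Agent.R254.Gen.Small

/-!
THIS FILE = PACKAGE E254-POINTS (row 254, END254-B; architect helper65).  Mathlib only.
# The level set `{|ext φ g| > μ}` is covered by `≤ CM μ^{-29}` unit balls.

PLAN.  `L` from `er_ext_lip`, `Ca` from `er_apriori`.  `δ := μ / (2 (L+1)) ≤ 1/2`.  Let `Z'` be a finite `1`-separated subset of `U_μ := {μ < ‖ext φ g‖}`.
The balls `ball z δ`, `z ∈ Z'`, are pairwise disjoint (`2δ ≤ 1`) and contained in `U_{μ/2}` (`‖ext x‖ ≥ ‖ext z‖ - L δ > μ - μ/2`).  Hence (`measure_biUnion_finset`, `er_vol_ball3`)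
`#Z' erV3 δ³ ≤ vol U_{μ/2} ≤ Ca (2/μ)^{26}`, i.e. `#Z' ≤ CM μ^{-29}` with `CM := max 1 (Ca 2^{26} (2(L+1))³ / erV3)`.
`er_exists_max_sep` with `N := ⌊CM μ^{-29}⌋₊`.
-/

set_option autoImplicit false

namespace Claimed.Agent.R254

open MeasureTheory Metric Set
open scoped ContDiff ENNReal ComplexConjugate RealInnerProductSpace

theorem er_points {φ : E2 → ℝ} {y₀ : E2} {ρ c G : ℝ} (h : ErLoc φ y₀ ρ c G) :
    ∃ CM : ℝ, 1 ≤ CM ∧ ∀ g : E2 → ℂ, Dat y₀ ρ g → ∫⁻ y, ‖g y‖ₑ ^ (3 : ℝ) ≤ 1 →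
      ∀ μ : ℝ, 0 < μ → μ ≤ 1 → ∃ Z : Finset E3, (Z.card : ℝ) ≤ CM * μ⁻¹ ^ (29 : ℝ) ∧
        ∀ x : E3, μ < ‖ext φ g x‖ → ∃ z ∈ Z, dist x z < 1 := by
  obtain ⟨L, hL0, hL⟩ := er_ext_lip h.smooth.continuous y₀ h.hρ.le h.hρ1
  obtain ⟨Ca, hCa0, hCa⟩ := er_apriori h
  have hV3 := erV3_pos
  refine ⟨max 1 (Ca * 2 ^ 26 * (2 * (L + 1)) ^ 3 / erV3), le_max_left _ _, fun g hg h3 μ hμ hμ1 => ?_⟩
  set CM := max 1 (Ca * 2 ^ 26 * (2 * (L + 1)) ^ 3 / erV3) with hCM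
  have hL1 : 0 < 2 * (L + 1) := by positivity
  set δ := μ / (2 * (L + 1)) with hδ
  have hδ0 : 0 < δ := by positivity
  have hδ2 : δ + δ ≤ 1 := by
    have : δ ≤ 1 / 2 := by
      rw [hδ, div_le_iff₀ hL1]
      nlinarith
    linarith
  have hLδ : L * δ ≤ μ / 2 := by
    rw [hδ, mul_div_assoc', div_le_iff₀ hL1]
    nlinarith
  have e29 : μ⁻¹ ^ (29 : ℝ) = μ⁻¹ ^ 29 := by
    rw [← Real.rpow_natCast]; norm_num
  have claim : ∀ Z : Finset E3, (↑Z : Set E3) ⊆ {x : E3 | μ < ‖ext φ g x‖} →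
      (∀ a ∈ Z, ∀ b ∈ Z, a ≠ b → 1 ≤ dist a b) → (Z.card : ℝ) ≤ CM * μ⁻¹ ^ (29 : ℝ) := by
    intro Z hZU hZs
    have hdisj : (↑Z : Set E3).PairwiseDisjoint (fun z => ball z δ) := by
      intro a ha b hb hab
      exact ball_disjoint_ball (hδ2.trans (hZs a ha b hb hab))
    have hsub : (⋃ z ∈ Z, ball z δ) ⊆ {x : E3 | μ / 2 < ‖ext φ g x‖} := by
      intro x hx
      simp only [mem_iUnion, exists_prop] at hx
      obtain ⟨z, hz, hxz⟩ := hx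
      have h1 : μ < ‖ext φ g z‖ := hZU hz
      have h2 := hL g hg h3 z x
      have h3' : ‖z - x‖ < δ := by
        rw [← dist_eq_norm, dist_comm]; exact hxz
      have h4 : ‖ext φ g z‖ ≤ ‖ext φ g x‖ + ‖ext φ g z - ext φ g x‖ := by
        have := norm_add_le (ext φ g x) (ext φ g z - ext φ g x)
        simpa using this
      have h5 : L * ‖z - x‖ ≤ L * δ := by gcongr
      show μ / 2 < ‖ext φ g x‖
      linarith
    have hmeas : volume (⋃ z ∈ Z, ball z δ) = (Z.card : ℝ≥0∞) * ENNReal.ofReal (δ ^ 3 * erV3) := by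
      rw [measure_biUnion_finset hdisj (fun _ _ => measurableSet_ball)]
      simp only [er_vol_ball3 _ hδ0.le, Finset.sum_const, nsmul_eq_mul]
    have hle := (measure_mono hsub).trans (hCa g hg h3 (μ / 2) (by positivity))
    rw [hmeas] at hle
    have e1 : (Z.card : ℝ≥0∞) = ENNReal.ofReal (Z.card : ℝ) := by simp
    rw [e1, ← ENNReal.ofReal_mul (by positivity),
      ENNReal.ofReal_le_ofReal_iff (by positivity)] at hle
    have hle2 : (Z.card : ℝ) ≤ Ca * 2 ^ 26 * (2 * (L + 1)) ^ 3 / erV3 * μ⁻¹ ^ 29 := by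
      have e2 : δ ^ 3 * erV3 = μ ^ 3 * erV3 / (2 * (L + 1)) ^ 3 := by
        rw [hδ]; field_simp
      have e3 : Ca * (μ / 2)⁻¹ ^ 26 = Ca * 2 ^ 26 * μ⁻¹ ^ 26 := by
        field_simp
      rw [e2, e3] at hle
      have hpos : 0 < μ ^ 3 * erV3 / (2 * (L + 1)) ^ 3 := by positivity
      calc (Z.card : ℝ) = (Z.card : ℝ) * (μ ^ 3 * erV3 / (2 * (L + 1)) ^ 3) /
            (μ ^ 3 * erV3 / (2 * (L + 1)) ^ 3) := by field_simp
        _ ≤ Ca * 2 ^ 26 * μ⁻¹ ^ 26 / (μ ^ 3 * erV3 / (2 * (L + 1)) ^ 3) := by gcongr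
        _ = _ := by field_simp
    rw [e29]
    refine hle2.trans ?_
    gcongr
    exact le_max_right _ _
  obtain ⟨Z, hZU, hZs, hZc⟩ := er_exists_max_sep {x : E3 | μ < ‖ext φ g x‖} ⌊CM * μ⁻¹ ^ (29 : ℝ)⌋₊
    (fun Z h1 h2 => Nat.le_floor (claim Z h1 h2))
  exact ⟨Z, claim Z hZU hZs, fun x hx => hZc x hx⟩

end Claimed.Agent.R254
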