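import Claimed.Agent.R254.Level.Level

/-!
THIS FILE = PACKAGE E254-STRONG (row 254, END254-B; architect helper65).  Mathlib only.
# From the level set bound to the strong `L³ → L^p` bound (`p > 3`) for `Dat`.

`er_strong`.  `ε := (p-3)/2`, `C` from `er_level`, `M₀ := erV2 + 1` (`er_ext_sup`: `‖ext φ g x‖ ≤ M₀`).  Layer cake `lintegral_rpow_eq_lintegral_meas_lt_mul` for `f = ‖ext φ g ·‖`
(`‖z‖ₑ ^ p = ENNReal.ofReal (‖z‖ ^ p)`: `ofReal_norm`, `ENNReal.ofReal_rpow_of_nonneg`):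
`∫⁻ ‖ext‖ₑ^p = ofReal p * ∫⁻_{t > 0} vol{t < ‖ext‖} ofReal(t^{p-1})`.   `t ≥ M₀`: the set is empty.   `0 < t ≤ 1`: `≤ C t^{-(3+ε)}`, and `t^{-(3+ε)} t^{p-1} = t^{ε-1}`... (`p - 1 - 3 - ε = ε - 1 > -1`).
`1 < t < M₀`: `vol{t < ..} ≤ vol{1 < ..} ≤ C`, `t^{p-1} ≤ M₀^{p-1}`.   So the integral is `≤ C/ε + C M₀^p`
(split `Ioi 0 = Ioc 0 1 ∪ Ioc 1 M₀ ∪ Ioi M₀`, `lintegral_union`/`lintegral_mono` with a majorant written with indicators; `integral_rpow`/`intervalIntegral.intervalIntegrable_rpow'`, `ofReal_integral_eq_lintegral_ofReal`).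
`er_local_dat` (homogeneity).  `N := ∫⁻ ‖g‖ₑ³ < ∞` (`Dat.lintegral_lt_top`).  `N = 0`: `g = 0` a.e. (`lintegral_eq_zero_iff`), `ext φ g = 0` (`ext_congr_ae`), LHS `= 0`.
`N > 0`: `s := N.toReal^{1/3}`, `g' := (s⁻¹ : ℂ) * g` is a `Dat` (`Dat.const_mul`) with `∫⁻‖g'‖ₑ³ = 1`; `ext φ g = s * ext φ g'` (`ext_const_mul`); `∫⁻‖ext φ g‖ₑ^p = s^p ∫⁻ ‖ext φ g'‖ₑ^p ≤ N^{p/3} C`
(`lintegral_const_mul`, `ENNReal.mul_rpow_of_nonneg`, `enorm_mul`).
-/

set_option autoImplicit false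

namespace Claimed.Agent.R254

open MeasureTheory Metric Set
open scoped ContDiff ENNReal ComplexConjugate RealInnerProductSpace

theorem er_strong {φ : E2 → ℝ} {y₀ : E2} {ρ c G : ℝ} (h : ErLoc φ y₀ ρ c G)
    (hloc : LocEst φ y₀ (2 * ρ)) (p : ℝ) (hp : 3 < p) :
    ∃ C : ℝ, 0 ≤ C ∧ ∀ g : E2 → ℂ, Dat y₀ ρ g → ∫⁻ y, ‖g y‖ₑ ^ (3 : ℝ) ≤ 1 →
      ∫⁻ x, ‖ext φ g x‖ₑ ^ p ≤ ENNReal.ofReal C := by
  obtain ⟨ε, hεd⟩ : ∃ ε : ℝ, ε = (p - 3) / 2 := ⟨_, rfl⟩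
  have hε : 0 < ε := by rw [hεd]; linarith
  obtain ⟨C, hC, hlev⟩ := er_level h hloc ε hε
  obtain ⟨M₀, hM₀⟩ : ∃ M₀ : ℝ, M₀ = erV2 + 1 := ⟨_, rfl⟩
  have hM₀1 : 1 ≤ M₀ := by rw [hM₀]; linarith [erV2_pos]
  have hM₀0 : 0 < M₀ := by linarith
  have hint : IntegrableOn (fun t : ℝ => C * t ^ (ε - 1)) (Ioc 0 1) := by
    have h1 : IntervalIntegrable (fun t : ℝ => t ^ (ε - 1)) volume 0 1 :=
      intervalIntegral.intervalIntegrable_rpow' (by linarith)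
    exact ((intervalIntegrable_iff_integrableOn_Ioc_of_le zero_le_one).1 h1).const_mul C
  have hnn : 0 ≤ᵐ[volume.restrict (Ioc (0 : ℝ) 1)] fun t : ℝ => C * t ^ (ε - 1) := by
    filter_upwards [ae_restrict_mem measurableSet_Ioc] with t ht
    exact mul_nonneg hC (Real.rpow_nonneg ht.1.le _)
  have hI0 : 0 ≤ ∫ t in Ioc (0 : ℝ) 1, C * t ^ (ε - 1) := integral_nonneg_of_ae hnn
  have hK0 : 0 ≤ C * M₀ ^ (p - 1) * (M₀ - 1) :=
    mul_nonneg (mul_nonneg hC (Real.rpow_nonneg hM₀0.le _)) (by linarith)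
  refine ⟨p * ((∫ t in Ioc (0 : ℝ) 1, C * t ^ (ε - 1)) + C * M₀ ^ (p - 1) * (M₀ - 1)),
    mul_nonneg (by linarith) (add_nonneg hI0 hK0), fun g hg h3 => ?_⟩
  have hf_meas : Measurable (fun x => ‖ext φ g x‖) :=
    (ext_continuous h.smooth.continuous hg.integrable).norm.measurable
  have e1 : ∀ x, ‖ext φ g x‖ₑ ^ p = ENNReal.ofReal (‖ext φ g x‖ ^ p) := fun x => by
    rw [← ofReal_norm, ENNReal.ofReal_rpow_of_nonneg (norm_nonneg _) (by linarith)]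
  simp only [e1]
  rw [lintegral_rpow_eq_lintegral_meas_lt_mul volume (ae_of_all _ fun x => norm_nonneg _)
    hf_meas.aemeasurable (by linarith), ENNReal.ofReal_mul (by linarith)]
  refine mul_le_mul_right ?_ _
  have hmaj : ∀ t ∈ Ioi (0 : ℝ), volume {a | t < ‖ext φ g a‖} * ENNReal.ofReal (t ^ (p - 1)) ≤
      (Ioc (0 : ℝ) 1).indicator (fun t => ENNReal.ofReal (C * t ^ (ε - 1))) t +
        (Ioc 1 M₀).indicator (fun _ => ENNReal.ofReal (C * M₀ ^ (p - 1))) t := by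
    intro t ht
    have ht0 : 0 < t := ht
    by_cases ht1 : t ≤ 1
    · rw [indicator_of_mem (show t ∈ Ioc (0 : ℝ) 1 from ⟨ht0, ht1⟩)]
      refine le_add_right ?_
      refine (mul_le_mul_left (hlev g hg h3 t ht0 ht1) _).trans ?_
      rw [← ENNReal.ofReal_mul (mul_nonneg hC (Real.rpow_nonneg (inv_nonneg.2 ht0.le) _))]
      refine ENNReal.ofReal_le_ofReal (le_of_eq ?_)
      rw [Real.inv_rpow ht0.le, ← Real.rpow_neg ht0.le, mul_assoc, ← Real.rpow_add ht0]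
      congr 2
      rw [hεd]
      ring
    · push Not at ht1
      by_cases htM : t ≤ M₀
      · rw [indicator_of_mem (show t ∈ Ioc (1 : ℝ) M₀ from ⟨ht1, htM⟩)]
        refine le_add_left ?_
        have h4 : volume {a | t < ‖ext φ g a‖} ≤ ENNReal.ofReal C := by
          refine (measure_mono fun a ha => ?_).trans
            ((hlev g hg h3 1 one_pos le_rfl).trans (le_of_eq (by simp)))
          exact lt_trans ht1 ha
        rw [ENNReal.ofReal_mul hC]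
        exact mul_le_mul' h4 (ENNReal.ofReal_le_ofReal
          (Real.rpow_le_rpow ht0.le htM (by linarith)))
      · push Not at htM
        have h4 : {a | t < ‖ext φ g a‖} = ∅ := by
          ext a
          simp only [Set.mem_ofPred_eq, mem_empty_iff_false, iff_false, not_lt]
          exact ((er_ext_sup φ h.hρ.le h.hρ1 hg h3 a).trans (le_of_eq hM₀.symm)).trans htM.le
        rw [h4, measure_empty, zero_mul]
        exact zero_le
  have hm1 : Measurable ((Ioc (0 : ℝ) 1).indicator (fun t => ENNReal.ofReal (C * t ^ (ε - 1)))) :=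
    Measurable.indicator (by fun_prop) measurableSet_Ioc
  calc ∫⁻ t in Ioi (0 : ℝ), volume {a | t < ‖ext φ g a‖} * ENNReal.ofReal (t ^ (p - 1))
      ≤ ∫⁻ t in Ioi (0 : ℝ), ((Ioc (0 : ℝ) 1).indicator (fun t => ENNReal.ofReal (C * t ^ (ε - 1))) t +
        (Ioc 1 M₀).indicator (fun _ => ENNReal.ofReal (C * M₀ ^ (p - 1))) t) :=
        setLIntegral_mono' measurableSet_Ioi hmaj
    _ ≤ ∫⁻ t, ((Ioc (0 : ℝ) 1).indicator (fun t => ENNReal.ofReal (C * t ^ (ε - 1))) t +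
        (Ioc 1 M₀).indicator (fun _ => ENNReal.ofReal (C * M₀ ^ (p - 1))) t) :=
        setLIntegral_le_lintegral _ _
    _ = ENNReal.ofReal (∫ t in Ioc (0 : ℝ) 1, C * t ^ (ε - 1)) +
        ENNReal.ofReal (C * M₀ ^ (p - 1)) * ENNReal.ofReal (M₀ - 1) := by
        rw [lintegral_add_left hm1, lintegral_indicator measurableSet_Ioc,
          lintegral_indicator measurableSet_Ioc, setLIntegral_const, Real.volume_Ioc,
          ofReal_integral_eq_lintegral_ofReal hint hnn]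
    _ = ENNReal.ofReal ((∫ t in Ioc (0 : ℝ) 1, C * t ^ (ε - 1)) + C * M₀ ^ (p - 1) * (M₀ - 1)) := by
        rw [← ENNReal.ofReal_mul (mul_nonneg hC (Real.rpow_nonneg hM₀0.le _)),
          ← ENNReal.ofReal_add hI0 hK0]

theorem er_local_dat {φ : E2 → ℝ} {y₀ : E2} {ρ c G : ℝ} (h : ErLoc φ y₀ ρ c G)
    (hloc : LocEst φ y₀ (2 * ρ)) (p : ℝ) (hp : 3 < p) :
    ∃ C : ℝ, 0 ≤ C ∧ ∀ g : E2 → ℂ, Dat y₀ ρ g →
      ∫⁻ x, ‖ext φ g x‖ₑ ^ p ≤ ENNReal.ofReal C * (∫⁻ y, ‖g y‖ₑ ^ (3 : ℝ)) ^ (p / 3) := by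
  obtain ⟨C, hC, hst⟩ := er_strong h hloc p hp
  refine ⟨C, hC, fun g hg => ?_⟩
  have hp0 : 0 < p := by linarith
  obtain ⟨N, hN⟩ : ∃ N : ℝ≥0∞, N = ∫⁻ y, ‖g y‖ₑ ^ (3 : ℝ) := ⟨_, rfl⟩
  have hNtop : N ≠ ⊤ := by rw [hN]; exact (hg.lintegral_lt_top (by norm_num)).ne
  rw [← hN]
  by_cases hN0 : N = 0
  · have h1 : (fun y => ‖g y‖ₑ ^ (3 : ℝ)) =ᵐ[volume] 0 := by
      rw [← lintegral_eq_zero_iff (hg.meas.enorm.pow_const _), ← hN, hN0]
    have h2 : g =ᵐ[volume] fun _ => 0 := by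
      filter_upwards [h1] with y hy
      have h3 : ‖g y‖ₑ = 0 := by
        have := (ENNReal.rpow_eq_zero_iff.1 hy)
        rcases this with ⟨a, -⟩ | ⟨-, b⟩
        · exact a
        · norm_num at b
      exact enorm_eq_zero.1 h3
    have h3 : ∀ x, ext φ g x = 0 := fun x => by
      rw [ext_congr_ae φ h2 x]
      simp [ext]
    simp only [h3, enorm_zero, ENNReal.zero_rpow_of_pos hp0, lintegral_zero]
    exact zero_le
  · obtain ⟨a, ha⟩ : ∃ a : ℝ≥0∞, a = N ^ ((1 : ℝ) / 3) := ⟨_, rfl⟩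
    have ha0 : a ≠ 0 := by
      rw [ha]
      intro h0
      rcases ENNReal.rpow_eq_zero_iff.1 h0 with ⟨b, -⟩ | ⟨-, b⟩
      · exact hN0 b
      · norm_num at b
    have hatop : a ≠ ⊤ := by
      rw [ha]
      exact ENNReal.rpow_ne_top_of_nonneg (by norm_num) hNtop
    have ha3 : a ^ (3 : ℝ) = N := by
      rw [ha, ← ENNReal.rpow_mul]
      norm_num
    have hap : a ^ p = N ^ (p / 3) := by
      rw [ha, ← ENNReal.rpow_mul]
      congr 1
      ring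
    obtain ⟨s, hs⟩ : ∃ s : ℝ, s = a.toReal := ⟨_, rfl⟩
    have hs0 : 0 < s := by rw [hs]; exact ENNReal.toReal_pos ha0 hatop
    have hsC : (s : ℂ) ≠ 0 := by exact_mod_cast hs0.ne'
    have hse : ‖(s : ℂ)‖ₑ = a := by
      rw [← ofReal_norm, Complex.norm_real, Real.norm_eq_abs, abs_of_pos hs0, hs,
        ENNReal.ofReal_toReal hatop]
    have hg' : Dat y₀ ρ (fun y => (s : ℂ)⁻¹ * g y) := hg.const_mul _
    have h3' : ∫⁻ y, ‖(s : ℂ)⁻¹ * g y‖ₑ ^ (3 : ℝ) ≤ 1 := by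
      have e1 : ∀ y, ‖(s : ℂ)⁻¹ * g y‖ₑ ^ (3 : ℝ) = N⁻¹ * ‖g y‖ₑ ^ (3 : ℝ) := fun y => by
        rw [enorm_mul, ENNReal.mul_rpow_of_nonneg _ _ (by norm_num), enorm_inv hsC, hse,
          ENNReal.inv_rpow, ha3]
      simp only [e1]
      rw [lintegral_const_mul _ (hg.meas.enorm.pow_const _), ← hN,
        ENNReal.inv_mul_cancel hN0 hNtop]
    have h4 := hst _ hg' h3'
    have e2 : ∀ x, ‖ext φ g x‖ₑ ^ p = a ^ p * ‖ext φ (fun y => (s : ℂ)⁻¹ * g y) x‖ₑ ^ p := fun x => by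
      rw [ext_const_mul, enorm_mul, ENNReal.mul_rpow_of_nonneg _ _ hp0.le, enorm_inv hsC, hse,
        ENNReal.inv_rpow, ← mul_assoc,
        ENNReal.mul_inv_cancel (by
          intro h0
          rcases ENNReal.rpow_eq_zero_iff.1 h0 with ⟨b, -⟩ | ⟨-, b⟩
          · exact ha0 b
          · linarith) (ENNReal.rpow_ne_top_of_nonneg hp0.le hatop), one_mul]
    simp only [e2]
    rw [lintegral_const_mul _ ((ext_continuous h.smooth.continuous
      hg'.integrable).measurable.enorm.pow_const _), hap, mul_comm]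
    exact mul_le_mul_left h4 _

end Claimed.Agent.R254
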